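import Vale.Agent.P048.Sat.Z7x18.Db0

namespace Vale.Agent.P048.Sat.Z7x18

open Vale.Agent.P048.Sat Vale.Agent.P048.Sat.Fast

noncomputable def s4_6 (i sh : Nat) : Nat := Bool.rec (Nat.shiftRight leaf4 sh) (Nat.shiftRight leaf5 sh) (Nat.ble 5 i)
noncomputable def s3_6 (i sh : Nat) : Nat := Bool.rec (Nat.shiftRight leaf3 sh) (s4_6 i sh) (Nat.ble 4 i)
noncomputable def s2_6 (i sh : Nat) : Nat := Bool.rec (Nat.shiftRight leaf2 sh) (s3_6 i sh) (Nat.ble 3 i)
noncomputable def s1_6 (i sh : Nat) : Nat := Bool.rec (Nat.shiftRight leaf1 sh) (s2_6 i sh) (Nat.ble 2 i)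
noncomputable def s0_6 (i sh : Nat) : Nat := Bool.rec (Nat.shiftRight leaf0 sh) (s1_6 i sh) (Nat.ble 1 i)
noncomputable def s7_9 (i sh : Nat) : Nat := Bool.rec (Nat.shiftRight leaf7 sh) (Nat.shiftRight leaf8 sh) (Nat.ble 8 i)
noncomputable def s6_9 (i sh : Nat) : Nat := Bool.rec (Nat.shiftRight leaf6 sh) (s7_9 i sh) (Nat.ble 7 i)
noncomputable def s9_11 (i sh : Nat) : Nat := Bool.rec (Nat.shiftRight leaf9 sh) (Nat.shiftRight leaf10 sh) (Nat.ble 10 i)
noncomputable def s11_13 (i sh : Nat) : Nat := Bool.rec (Nat.shiftRight leaf11 sh) (Nat.shiftRight leaf12 sh) (Nat.ble 12 i)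
noncomputable def s13_15 (i sh : Nat) : Nat := Bool.rec (Nat.shiftRight leaf13 sh) (Nat.shiftRight leaf14 sh) (Nat.ble 14 i)
noncomputable def s11_15 (i sh : Nat) : Nat := Bool.rec (s11_13 i sh) (s13_15 i sh) (Nat.ble 13 i)
noncomputable def s9_15 (i sh : Nat) : Nat := Bool.rec (s9_11 i sh) (s11_15 i sh) (Nat.ble 11 i)
noncomputable def s6_15 (i sh : Nat) : Nat := Bool.rec (s6_9 i sh) (s9_15 i sh) (Nat.ble 9 i)
noncomputable def s15_17 (i sh : Nat) : Nat := Bool.rec (Nat.shiftRight leaf15 sh) (Nat.shiftRight leaf16 sh) (Nat.ble 16 i)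
noncomputable def s17_19 (i sh : Nat) : Nat := Bool.rec (Nat.shiftRight leaf17 sh) (Nat.shiftRight leaf18 sh) (Nat.ble 18 i)
noncomputable def s15_19 (i sh : Nat) : Nat := Bool.rec (s15_17 i sh) (s17_19 i sh) (Nat.ble 17 i)
noncomputable def s20_22 (i sh : Nat) : Nat := Bool.rec (Nat.shiftRight leaf20 sh) (Nat.shiftRight leaf21 sh) (Nat.ble 21 i)
noncomputable def s19_22 (i sh : Nat) : Nat := Bool.rec (Nat.shiftRight leaf19 sh) (s20_22 i sh) (Nat.ble 20 i)
noncomputable def s22_24 (i sh : Nat) : Nat := Bool.rec (Nat.shiftRight leaf22 sh) (Nat.shiftRight leaf23 sh) (Nat.ble 23 i)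
noncomputable def s24_26 (i sh : Nat) : Nat := Bool.rec (Nat.shiftRight leaf24 sh) (Nat.shiftRight leaf25 sh) (Nat.ble 25 i)
noncomputable def s22_26 (i sh : Nat) : Nat := Bool.rec (s22_24 i sh) (s24_26 i sh) (Nat.ble 24 i)
noncomputable def s19_26 (i sh : Nat) : Nat := Bool.rec (s19_22 i sh) (s22_26 i sh) (Nat.ble 22 i)
noncomputable def s15_26 (i sh : Nat) : Nat := Bool.rec (s15_19 i sh) (s19_26 i sh) (Nat.ble 19 i)
noncomputable def s27_29 (i sh : Nat) : Nat := Bool.rec (Nat.shiftRight leaf27 sh) (Nat.shiftRight leaf28 sh) (Nat.ble 28 i)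
noncomputable def s26_29 (i sh : Nat) : Nat := Bool.rec (Nat.shiftRight leaf26 sh) (s27_29 i sh) (Nat.ble 27 i)
noncomputable def s30_32 (i sh : Nat) : Nat := Bool.rec (Nat.shiftRight leaf30 sh) (Nat.shiftRight leaf31 sh) (Nat.ble 31 i)
noncomputable def s29_32 (i sh : Nat) : Nat := Bool.rec (Nat.shiftRight leaf29 sh) (s30_32 i sh) (Nat.ble 30 i)
noncomputable def s26_32 (i sh : Nat) : Nat := Bool.rec (s26_29 i sh) (s29_32 i sh) (Nat.ble 29 i)
noncomputable def s33_35 (i sh : Nat) : Nat := Bool.rec (Nat.shiftRight leaf33 sh) (Nat.shiftRight leaf34 sh) (Nat.ble 34 i)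
noncomputable def s32_35 (i sh : Nat) : Nat := Bool.rec (Nat.shiftRight leaf32 sh) (s33_35 i sh) (Nat.ble 33 i)
noncomputable def s36_38 (i sh : Nat) : Nat := Bool.rec (Nat.shiftRight leaf36 sh) (Nat.shiftRight leaf37 sh) (Nat.ble 37 i)
noncomputable def s35_38 (i sh : Nat) : Nat := Bool.rec (Nat.shiftRight leaf35 sh) (s36_38 i sh) (Nat.ble 36 i)
noncomputable def s32_38 (i sh : Nat) : Nat := Bool.rec (s32_35 i sh) (s35_38 i sh) (Nat.ble 35 i)
noncomputable def s26_38 (i sh : Nat) : Nat := Bool.rec (s26_32 i sh) (s32_38 i sh) (Nat.ble 32 i)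
noncomputable def s26_39 (i sh : Nat) : Nat := Bool.rec (s26_38 i sh) (Nat.shiftRight leaf38 sh) (Nat.ble 38 i)
noncomputable def s15_39 (i sh : Nat) : Nat := Bool.rec (s15_26 i sh) (s26_39 i sh) (Nat.ble 26 i)
noncomputable def s39_41 (i sh : Nat) : Nat := Bool.rec (Nat.shiftRight leaf39 sh) (Nat.shiftRight leaf40 sh) (Nat.ble 40 i)
noncomputable def s39_42 (i sh : Nat) : Nat := Bool.rec (s39_41 i sh) (Nat.shiftRight leaf41 sh) (Nat.ble 41 i)
noncomputable def s39_43 (i sh : Nat) : Nat := Bool.rec (s39_42 i sh) (Nat.shiftRight leaf42 sh) (Nat.ble 42 i)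
noncomputable def s43_45 (i sh : Nat) : Nat := Bool.rec (Nat.shiftRight leaf43 sh) (Nat.shiftRight leaf44 sh) (Nat.ble 44 i)
noncomputable def s46_48 (i sh : Nat) : Nat := Bool.rec (Nat.shiftRight leaf46 sh) (Nat.shiftRight leaf47 sh) (Nat.ble 47 i)
noncomputable def s45_48 (i sh : Nat) : Nat := Bool.rec (Nat.shiftRight leaf45 sh) (s46_48 i sh) (Nat.ble 46 i)
noncomputable def s43_48 (i sh : Nat) : Nat := Bool.rec (s43_45 i sh) (s45_48 i sh) (Nat.ble 45 i)
noncomputable def s39_48 (i sh : Nat) : Nat := Bool.rec (s39_43 i sh) (s43_48 i sh) (Nat.ble 43 i)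
noncomputable def s15_48 (i sh : Nat) : Nat := Bool.rec (s15_39 i sh) (s39_48 i sh) (Nat.ble 39 i)
noncomputable def s6_48 (i sh : Nat) : Nat := Bool.rec (s6_15 i sh) (s15_48 i sh) (Nat.ble 15 i)
noncomputable def s48_50 (i sh : Nat) : Nat := Bool.rec (Nat.shiftRight leaf48 sh) (Nat.shiftRight leaf49 sh) (Nat.ble 49 i)
noncomputable def s51_53 (i sh : Nat) : Nat := Bool.rec (Nat.shiftRight leaf51 sh) (Nat.shiftRight leaf52 sh) (Nat.ble 52 i)
noncomputable def s50_53 (i sh : Nat) : Nat := Bool.rec (Nat.shiftRight leaf50 sh) (s51_53 i sh) (Nat.ble 51 i)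
noncomputable def s48_53 (i sh : Nat) : Nat := Bool.rec (s48_50 i sh) (s50_53 i sh) (Nat.ble 50 i)
noncomputable def s48_54 (i sh : Nat) : Nat := Bool.rec (s48_53 i sh) (Nat.shiftRight leaf53 sh) (Nat.ble 53 i)
noncomputable def s55_57 (i sh : Nat) : Nat := Bool.rec (Nat.shiftRight leaf55 sh) (Nat.shiftRight leaf56 sh) (Nat.ble 56 i)
noncomputable def s57_59 (i sh : Nat) : Nat := Bool.rec (Nat.shiftRight leaf57 sh) (Nat.shiftRight leaf58 sh) (Nat.ble 58 i)
noncomputable def s55_59 (i sh : Nat) : Nat := Bool.rec (s55_57 i sh) (s57_59 i sh) (Nat.ble 57 i)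
noncomputable def s54_59 (i sh : Nat) : Nat := Bool.rec (Nat.shiftRight leaf54 sh) (s55_59 i sh) (Nat.ble 55 i)
noncomputable def s48_59 (i sh : Nat) : Nat := Bool.rec (s48_54 i sh) (s54_59 i sh) (Nat.ble 54 i)
noncomputable def s59_61 (i sh : Nat) : Nat := Bool.rec (Nat.shiftRight leaf59 sh) (Nat.shiftRight leaf60 sh) (Nat.ble 60 i)
noncomputable def s61_63 (i sh : Nat) : Nat := Bool.rec (Nat.shiftRight leaf61 sh) (Nat.shiftRight leaf62 sh) (Nat.ble 62 i)
noncomputable def s61_64 (i sh : Nat) : Nat := Bool.rec (s61_63 i sh) (Nat.shiftRight leaf63 sh) (Nat.ble 63 i)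
noncomputable def s59_64 (i sh : Nat) : Nat := Bool.rec (s59_61 i sh) (s61_64 i sh) (Nat.ble 61 i)
noncomputable def s64_66 (i sh : Nat) : Nat := Bool.rec (Nat.shiftRight leaf64 sh) (Nat.shiftRight leaf65 sh) (Nat.ble 65 i)
noncomputable def s67_69 (i sh : Nat) : Nat := Bool.rec (Nat.shiftRight leaf67 sh) (Nat.shiftRight leaf68 sh) (Nat.ble 68 i)
noncomputable def s66_69 (i sh : Nat) : Nat := Bool.rec (Nat.shiftRight leaf66 sh) (s67_69 i sh) (Nat.ble 67 i)
noncomputable def s64_69 (i sh : Nat) : Nat := Bool.rec (s64_66 i sh) (s66_69 i sh) (Nat.ble 66 i)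
noncomputable def s69_71 (i sh : Nat) : Nat := Bool.rec (Nat.shiftRight leaf69 sh) (Nat.shiftRight leaf70 sh) (Nat.ble 70 i)
noncomputable def s71_73 (i sh : Nat) : Nat := Bool.rec (Nat.shiftRight leaf71 sh) (Nat.shiftRight leaf72 sh) (Nat.ble 72 i)
noncomputable def s69_73 (i sh : Nat) : Nat := Bool.rec (s69_71 i sh) (s71_73 i sh) (Nat.ble 71 i)
noncomputable def s64_73 (i sh : Nat) : Nat := Bool.rec (s64_69 i sh) (s69_73 i sh) (Nat.ble 69 i)
noncomputable def s59_73 (i sh : Nat) : Nat := Bool.rec (s59_64 i sh) (s64_73 i sh) (Nat.ble 64 i)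
noncomputable def s73_75 (i sh : Nat) : Nat := Bool.rec (Nat.shiftRight leaf73 sh) (Nat.shiftRight leaf74 sh) (Nat.ble 74 i)
noncomputable def s73_76 (i sh : Nat) : Nat := Bool.rec (s73_75 i sh) (Nat.shiftRight leaf75 sh) (Nat.ble 75 i)
noncomputable def s76_78 (i sh : Nat) : Nat := Bool.rec (Nat.shiftRight leaf76 sh) (Nat.shiftRight leaf77 sh) (Nat.ble 77 i)
noncomputable def s73_78 (i sh : Nat) : Nat := Bool.rec (s73_76 i sh) (s76_78 i sh) (Nat.ble 76 i)
noncomputable def s80_82 (i sh : Nat) : Nat := Bool.rec (Nat.shiftRight leaf80 sh) (Nat.shiftRight leaf81 sh) (Nat.ble 81 i)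
noncomputable def s79_82 (i sh : Nat) : Nat := Bool.rec (Nat.shiftRight leaf79 sh) (s80_82 i sh) (Nat.ble 80 i)
noncomputable def s78_82 (i sh : Nat) : Nat := Bool.rec (Nat.shiftRight leaf78 sh) (s79_82 i sh) (Nat.ble 79 i)
noncomputable def s73_82 (i sh : Nat) : Nat := Bool.rec (s73_78 i sh) (s78_82 i sh) (Nat.ble 78 i)
noncomputable def s82_84 (i sh : Nat) : Nat := Bool.rec (Nat.shiftRight leaf82 sh) (Nat.shiftRight leaf83 sh) (Nat.ble 83 i)
noncomputable def s82_85 (i sh : Nat) : Nat := Bool.rec (s82_84 i sh) (Nat.shiftRight leaf84 sh) (Nat.ble 84 i)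
noncomputable def s86_88 (i sh : Nat) : Nat := Bool.rec (Nat.shiftRight leaf86 sh) (Nat.shiftRight leaf87 sh) (Nat.ble 87 i)
noncomputable def s85_88 (i sh : Nat) : Nat := Bool.rec (Nat.shiftRight leaf85 sh) (s86_88 i sh) (Nat.ble 86 i)
noncomputable def s82_88 (i sh : Nat) : Nat := Bool.rec (s82_85 i sh) (s85_88 i sh) (Nat.ble 85 i)
noncomputable def s89_91 (i sh : Nat) : Nat := Bool.rec (Nat.shiftRight leaf89 sh) (Nat.shiftRight leaf90 sh) (Nat.ble 90 i)
noncomputable def s91_93 (i sh : Nat) : Nat := Bool.rec (Nat.shiftRight leaf91 sh) (Nat.shiftRight leaf92 sh) (Nat.ble 92 i)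
noncomputable def s89_93 (i sh : Nat) : Nat := Bool.rec (s89_91 i sh) (s91_93 i sh) (Nat.ble 91 i)
noncomputable def s88_93 (i sh : Nat) : Nat := Bool.rec (Nat.shiftRight leaf88 sh) (s89_93 i sh) (Nat.ble 89 i)
noncomputable def s82_93 (i sh : Nat) : Nat := Bool.rec (s82_88 i sh) (s88_93 i sh) (Nat.ble 88 i)
noncomputable def s73_93 (i sh : Nat) : Nat := Bool.rec (s73_82 i sh) (s82_93 i sh) (Nat.ble 82 i)
noncomputable def s59_93 (i sh : Nat) : Nat := Bool.rec (s59_73 i sh) (s73_93 i sh) (Nat.ble 73 i)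
noncomputable def s48_93 (i sh : Nat) : Nat := Bool.rec (s48_59 i sh) (s59_93 i sh) (Nat.ble 59 i)
noncomputable def s6_93 (i sh : Nat) : Nat := Bool.rec (s6_48 i sh) (s48_93 i sh) (Nat.ble 48 i)
noncomputable def s0_93 (i sh : Nat) : Nat := Bool.rec (s0_6 i sh) (s6_93 i sh) (Nat.ble 6 i)

noncomputable def sel (i sh : Nat) : Nat :=
  s0_93 i sh

noncomputable def cls (id : Nat) : Nat :=
  Nat.land (sel (Nat.shiftRight id 6) (Nat.mul (Nat.land id 63) 1088)) 3316158518186977171087283760642741158699936149735704467159471849921418683482035763477878926564345847729145083728966646356210626353328840324989147544629059746554141479347263264595425816446455256534872353644097455203319930608430165174159005378955830171087831965898486080345430665055936553487340789901656166618033483630075818541055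

def sp : Spec := ⟨25, 7, 18, true, 18, true, 14, 17, 0, 0, 512⟩

end Vale.Agent.P048.Sat.Z7x18
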